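import Vale.Agent.Lib.P048.Units

/-!
P048 (cycle-complete graph Ramsey numbers): the Erdos-Faudree-Rousseau-Schelp identity holds for
all `m ≥ 3`, `n ≥ 2` when the cycle `C_m` is replaced by the cycles of lengths `m, ..., m + 2n - 4`.
-/

namespace Vale.Agent.Results.P048.CycleWindow

open Vale.Agent.Lib.P048

/-- For all `m ≥ 3`, `n ≥ 2`: (1) every graph on at least `(m-1)(n-1)+1` vertices with no
independent set of `n` vertices contains a cycle whose length lies in `[m, m + 2n - 4]`;
(2) some graph on `(m-1)(n-1)` vertices with no independent set of `n` vertices has no cycle of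
length at least `m`. -/
theorem result : ∀ (m n : ℕ), 3 ≤ m → 2 ≤ n →
    (∀ (V : Type) [Fintype V] (G : SimpleGraph V), (m - 1) * (n - 1) + 1 ≤ Fintype.card V →
      G.IndepSetFree n →
      ∃ (v : V) (p : G.Walk v v), p.IsCycle ∧ m ≤ p.length ∧ p.length ≤ m + 2 * n - 4) ∧
    (∃ (V : Type) (_ : Fintype V) (G : SimpleGraph V), Fintype.card V = (m - 1) * (n - 1) ∧
      G.IndepSetFree n ∧ ∀ (v : V) (p : G.Walk v v), p.IsCycle → p.length < m) := by
  intro m n hm hn
  constructor
  · intro V _ G hcard hfree
    classical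
    have h1 : ∃ l, CycL G l ∧ m ≤ l.length := by
      refine exists_cycle_ge G m hm (n - 1) Finset.univ (by rw [Finset.card_univ]; exact hcard) ?_
      intro I _ hI hind
      exact hfree I ⟨hind, by omega⟩
    have h2 : ∃ L, ∃ l, CycL G l ∧ l.length = L ∧ m ≤ L := by
      obtain ⟨l, hl, hml⟩ := h1
      exact ⟨l.length, l, hl, rfl, hml⟩
    obtain ⟨l, hl, hlen, hmL⟩ := Nat.find_spec h2
    have hub : Nat.find h2 ≤ m + 2 * n - 4 := by
      by_contra hlt
      obtain ⟨l', hl', hlt', hge'⟩ := exists_shorter G l hl n hn (by omega) hfree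
      exact Nat.find_min h2 (m := l'.length) (by omega) ⟨l', hl', rfl, by omega⟩
    obtain ⟨v, p, hp, hpl⟩ := exists_walk_of_cycL G l hl
    exact ⟨v, p, hp, by omega, by omega⟩
  · refine ⟨Fin (n - 1) × Fin (m - 1), inferInstance, cliques (n - 1) (m - 1), ?_, ?_, ?_⟩
    · simp [mul_comm]
    · have := cliques_indepSetFree (n - 1) (m - 1)
      have e : n - 1 + 1 = n := by omega
      rwa [e] at this
    · intro v p hp
      have := cliques_cycle_le (n - 1) (m - 1) v p hp
      omega

end Vale.Agent.Results.P048.CycleWindow
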